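import Vale.Agent.Lib.P249.helper68.GridDefs

/-!
# P249 grid argument: the box average of a Lipschitz function

`boxAvg_close`: the box average of an `L`-Lipschitz function on the integer lattice stays
within `L * w * sqrt k` of the function; `boxAvg_lip`: it is again `L`-Lipschitz.
-/

namespace Vale.Agent.Lib.P249.H22

open Vale.Agent.Lib.P249.H68 Finset

/-- An average over `Fin k → Fin w` of terms bounded by `B` is bounded by `B`. -/
theorem abs_avg_le {k : ℕ} (w : ℕ) (hw : 0 < w) (f : (Fin k → Fin w) → ℝ) (B : ℝ)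
    (hf : ∀ u, |f u| ≤ B) : |(∑ u, f u) / (w : ℝ) ^ k| ≤ B := by
  have hwk : (0 : ℝ) < (w : ℝ) ^ k := pow_pos (Nat.cast_pos.2 hw) k
  rw [abs_div, abs_of_pos hwk, div_le_iff₀ hwk]
  calc |∑ u, f u| ≤ ∑ u, |f u| := Finset.abs_sum_le_sum_abs _ _
    _ ≤ ∑ _u : Fin k → Fin w, B := Finset.sum_le_sum fun u _ => hf u
    _ = B * (w : ℝ) ^ k := by
        rw [Finset.sum_const, Finset.card_univ, Fintype.card_fun, Fintype.card_fin,
          Fintype.card_fin, nsmul_eq_mul]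
        push_cast
        ring

/-- The box average minus a constant is the average of the differences. -/
theorem boxAvg_sub_const {k : ℕ} (w : ℕ) (hw : 0 < w) (G : (Fin k → ℤ) → ℝ) (c : ℝ)
    (z : Fin k → ℤ) :
    boxAvg k w G z - c =
      (∑ u : Fin k → Fin w, (G (fun i => z i + ((u i : ℕ) : ℤ)) - c)) / (w : ℝ) ^ k := by
  have hwk : (w : ℝ) ^ k ≠ 0 := pow_ne_zero _ (Nat.cast_ne_zero.2 hw.ne')
  unfold boxAvg
  rw [Finset.sum_sub_distrib, Finset.sum_const, Finset.card_univ, Fintype.card_fun,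
    Fintype.card_fin, Fintype.card_fin, nsmul_eq_mul, sub_div]
  push_cast
  rw [mul_div_cancel_left₀ c hwk]

theorem boxAvg_close {k : ℕ} (w : ℕ) (hw : 0 < w) (G : (Fin k → ℤ) → ℝ) (L : ℝ) (hL : 0 ≤ L)
    (hG : LipZ G L) (z : Fin k → ℤ) :
    |boxAvg k w G z - G z| ≤ L * w * Real.sqrt k := by
  rw [boxAvg_sub_const w hw G (G z) z]
  apply abs_avg_le w hw
  intro u
  refine (hG _ _).trans ?_
  have h1 : sqDist (fun i => z i + ((u i : ℕ) : ℤ)) z ≤ (k : ℝ) * (w : ℝ) ^ 2 := by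
    unfold sqDist
    calc ∑ i, ((((z i + ((u i : ℕ) : ℤ)) : ℤ) : ℝ) - (z i : ℝ)) ^ 2
          ≤ ∑ _i : Fin k, (w : ℝ) ^ 2 := by
          apply Finset.sum_le_sum
          intro i _
          have hu : ((u i : ℕ) : ℝ) ≤ (w : ℝ) := by exact_mod_cast (u i).isLt.le
          have h0 : (0 : ℝ) ≤ ((u i : ℕ) : ℝ) := Nat.cast_nonneg _
          have h3 : (((z i + ((u i : ℕ) : ℤ)) : ℤ) : ℝ) - (z i : ℝ) = ((u i : ℕ) : ℝ) := by
            push_cast
            ring
          rw [h3]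
          exact pow_le_pow_left₀ h0 hu 2
      _ = (k : ℝ) * (w : ℝ) ^ 2 := by simp
  have h2 : Real.sqrt (sqDist (fun i => z i + ((u i : ℕ) : ℤ)) z) ≤ (w : ℝ) * Real.sqrt k := by
    calc Real.sqrt (sqDist (fun i => z i + ((u i : ℕ) : ℤ)) z)
          ≤ Real.sqrt ((k : ℝ) * (w : ℝ) ^ 2) := Real.sqrt_le_sqrt h1
      _ = (w : ℝ) * Real.sqrt k := by
          rw [mul_comm, Real.sqrt_mul (by positivity), Real.sqrt_sq (Nat.cast_nonneg w)]
  calc L * Real.sqrt (sqDist (fun i => z i + ((u i : ℕ) : ℤ)) z)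
        ≤ L * ((w : ℝ) * Real.sqrt k) := mul_le_mul_of_nonneg_left h2 hL
    _ = L * w * Real.sqrt k := by ring

theorem boxAvg_lip {k : ℕ} (w : ℕ) (hw : 0 < w) (G : (Fin k → ℤ) → ℝ) (L : ℝ)
    (hG : LipZ G L) : LipZ (boxAvg k w G) L := by
  intro z z'
  have h : boxAvg k w G z - boxAvg k w G z' =
      (∑ u : Fin k → Fin w, (G (fun i => z i + ((u i : ℕ) : ℤ)) -
        G (fun i => z' i + ((u i : ℕ) : ℤ)))) / (w : ℝ) ^ k := by
    unfold boxAvg
    rw [Finset.sum_sub_distrib, sub_div]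
  rw [h]
  apply abs_avg_le w hw
  intro u
  have hs : sqDist (fun i => z i + ((u i : ℕ) : ℤ)) (fun i => z' i + ((u i : ℕ) : ℤ)) =
      sqDist z z' := by
    unfold sqDist
    apply Finset.sum_congr rfl
    intro i _
    push_cast
    ring
  have h4 := hG (fun i => z i + ((u i : ℕ) : ℤ)) (fun i => z' i + ((u i : ℕ) : ℤ))
  rw [hs] at h4
  exact h4

end Vale.Agent.Lib.P249.H22
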