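import Mathlib

namespace Vale.Agent.Lib.P249.H22g

open Finset

private theorem h22_swap3 {A B C : Type*} [Fintype A] [Fintype B] [Fintype C]
    (X : A → B → C → ℝ) :
    ∑ a, ∑ b, ∑ c, X a b c = ∑ c, ∑ b, ∑ a, X a b c := by
  calc ∑ a, ∑ b, ∑ c, X a b c = ∑ b, ∑ a, ∑ c, X a b c := Finset.sum_comm
    _ = ∑ b, ∑ c, ∑ a, X a b c := Finset.sum_congr rfl (fun b _ => Finset.sum_comm)
    _ = ∑ c, ∑ b, ∑ a, X a b c := Finset.sum_comm

/-- Four-point inequality: the full pair variance of a function of two variables is at most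
the sum of its two partial pair variances. -/
theorem four_point {S T : Type*} [Fintype S] [Fintype T] (g : S → T → ℝ) :
    ∑ s, ∑ t, ∑ s', ∑ t', (g s t - g s' t') ^ 2 ≤
      (Fintype.card S : ℝ) * ∑ s, ∑ t, ∑ t', (g s t - g s t') ^ 2 +
      (Fintype.card T : ℝ) * ∑ t, ∑ s, ∑ s', (g s t - g s' t) ^ 2 := by
  have key : ∀ s t s' t', (g s t - g s' t') ^ 2 + (g s t' - g s' t) ^ 2 ≤
      (g s t - g s t') ^ 2 + (g s' t - g s' t') ^ 2 + (g s t - g s' t) ^ 2 +
        (g s t' - g s' t') ^ 2 := by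
    intro s t s' t'
    nlinarith [sq_nonneg (g s t + g s' t' - g s t' - g s' t)]
  have hsum : ∑ s, ∑ t, ∑ s', ∑ t', ((g s t - g s' t') ^ 2 + (g s t' - g s' t) ^ 2) ≤
      ∑ s, ∑ t, ∑ s', ∑ t', ((g s t - g s t') ^ 2 + (g s' t - g s' t') ^ 2 +
        (g s t - g s' t) ^ 2 + (g s t' - g s' t') ^ 2) :=
    Finset.sum_le_sum fun s _ => Finset.sum_le_sum fun t _ => Finset.sum_le_sum fun s' _ =>
      Finset.sum_le_sum fun t' _ => key s t s' t'
  have e1 : ∑ s, ∑ t, ∑ s', ∑ t', (g s t' - g s' t) ^ 2 =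
      ∑ s, ∑ t, ∑ s', ∑ t', (g s t - g s' t') ^ 2 :=
    Finset.sum_congr rfl fun s _ => h22_swap3 (fun t s' t' => (g s t' - g s' t) ^ 2)
  have e2 : ∑ s, ∑ t, ∑ _s' : S, ∑ t', (g s t - g s t') ^ 2 =
      (Fintype.card S : ℝ) * ∑ s, ∑ t, ∑ t', (g s t - g s t') ^ 2 := by
    rw [Finset.mul_sum]
    refine Finset.sum_congr rfl fun s _ => ?_
    rw [Finset.mul_sum]
    refine Finset.sum_congr rfl fun t _ => ?_
    rw [Finset.sum_const, Finset.card_univ, nsmul_eq_mul]
  have e3 : ∑ _s : S, ∑ t, ∑ s', ∑ t', (g s' t - g s' t') ^ 2 =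
      (Fintype.card S : ℝ) * ∑ s, ∑ t, ∑ t', (g s t - g s t') ^ 2 := by
    rw [Finset.sum_const, Finset.card_univ, nsmul_eq_mul]
    congr 1
    exact Finset.sum_comm
  have e4 : ∑ s, ∑ t, ∑ s', ∑ _t' : T, (g s t - g s' t) ^ 2 =
      (Fintype.card T : ℝ) * ∑ t, ∑ s, ∑ s', (g s t - g s' t) ^ 2 := by
    calc ∑ s, ∑ t, ∑ s', ∑ _t' : T, (g s t - g s' t) ^ 2
        = ∑ s, ∑ t, ∑ s', (Fintype.card T : ℝ) * (g s t - g s' t) ^ 2 := by
          refine Finset.sum_congr rfl fun s _ => Finset.sum_congr rfl fun t _ =>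
            Finset.sum_congr rfl fun s' _ => ?_
          rw [Finset.sum_const, Finset.card_univ, nsmul_eq_mul]
      _ = (Fintype.card T : ℝ) * ∑ s, ∑ t, ∑ s', (g s t - g s' t) ^ 2 := by
          simp only [Finset.mul_sum]
      _ = (Fintype.card T : ℝ) * ∑ t, ∑ s, ∑ s', (g s t - g s' t) ^ 2 := by
          congr 1
          exact Finset.sum_comm
  have e5 : ∑ s, ∑ _t : T, ∑ s', ∑ t', (g s t' - g s' t') ^ 2 =
      (Fintype.card T : ℝ) * ∑ t, ∑ s, ∑ s', (g s t - g s' t) ^ 2 := by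
    calc ∑ s, ∑ _t : T, ∑ s', ∑ t', (g s t' - g s' t') ^ 2
        = ∑ s, (Fintype.card T : ℝ) * ∑ s', ∑ t', (g s t' - g s' t') ^ 2 := by
          refine Finset.sum_congr rfl fun s _ => ?_
          rw [Finset.sum_const, Finset.card_univ, nsmul_eq_mul]
      _ = (Fintype.card T : ℝ) * ∑ s, ∑ s', ∑ t', (g s t' - g s' t') ^ 2 := by
          rw [Finset.mul_sum]
      _ = (Fintype.card T : ℝ) * ∑ t, ∑ s, ∑ s', (g s t - g s' t) ^ 2 := by
          congr 1
          calc ∑ s, ∑ s', ∑ t', (g s t' - g s' t') ^ 2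
              = ∑ s, ∑ t', ∑ s', (g s t' - g s' t') ^ 2 :=
                Finset.sum_congr rfl fun s _ => Finset.sum_comm
            _ = ∑ t', ∑ s, ∑ s', (g s t' - g s' t') ^ 2 := Finset.sum_comm
  simp only [Finset.sum_add_distrib] at hsum
  rw [e1, e2, e3, e4, e5] at hsum
  linarith

private theorem h22_sum_cons {k m : ℕ} (F : (Fin (k + 1) → Fin m) → ℝ) :
    ∑ x, F x = ∑ a : Fin m, ∑ b : Fin k → Fin m, F (Fin.cons a b) := by
  have hbij : Function.Bijective
      (fun p : Fin m × (Fin k → Fin m) => (Fin.cons p.1 p.2 : Fin (k + 1) → Fin m)) := by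
    constructor
    · rintro ⟨a, b⟩ ⟨a', b'⟩ h
      have h2 := Fin.cons_injective2 h
      exact Prod.ext h2.1 h2.2
    · intro x
      exact ⟨(x 0, Fin.tail x), Fin.cons_self_tail x⟩
  calc ∑ x, F x = ∑ p : Fin m × (Fin k → Fin m), F (Fin.cons p.1 p.2) :=
        (Fintype.sum_bijective _ hbij _ _ (fun p => rfl)).symm
    _ = ∑ a : Fin m, ∑ b : Fin k → Fin m, F (Fin.cons a b) :=
        Fintype.sum_prod_type' (fun a b => F (Fin.cons a b))

/-- Efron-Stein on the grid `{0..m-1}^k`: the pair variance is controlled by the sum over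
coordinates of the one-coordinate resampling differences. -/
theorem efron (m : ℕ) : ∀ (k : ℕ) (g : (Fin k → Fin m) → ℝ),
    (m : ℝ) * ∑ x, ∑ y, (g x - g y) ^ 2 ≤
      (m : ℝ) ^ k * ∑ x, ∑ j, ∑ t, (g (Function.update x j t) - g x) ^ 2 := by
  intro k
  induction k with
  | zero =>
    intro g
    have h0 : ∑ x, ∑ y, (g x - g y) ^ 2 = 0 := by
      apply Finset.sum_eq_zero
      intro x _
      apply Finset.sum_eq_zero
      intro y _
      rw [Subsingleton.elim x y]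
      simp
    rw [h0, mul_zero]
    exact mul_nonneg (by positivity) (Finset.sum_nonneg fun x _ => Finset.sum_nonneg fun j _ =>
      Finset.sum_nonneg fun t _ => sq_nonneg _)
  | succ k ih =>
    intro g
    have hm : (0 : ℝ) ≤ (m : ℝ) := Nat.cast_nonneg m
    have hL : ∑ x, ∑ y, (g x - g y) ^ 2 =
        ∑ a : Fin m, ∑ b : Fin k → Fin m, ∑ a' : Fin m, ∑ b' : Fin k → Fin m,
          (g (Fin.cons a b) - g (Fin.cons a' b')) ^ 2 := by
      rw [h22_sum_cons]
      refine Finset.sum_congr rfl fun a _ => Finset.sum_congr rfl fun b _ => ?_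
      rw [h22_sum_cons]
    have h1 : ∀ (a : Fin m) (b : Fin k → Fin m),
        ∑ j, ∑ t, (g (Function.update (Fin.cons a b : Fin (k + 1) → Fin m) j t) -
          g (Fin.cons a b)) ^ 2 =
        ∑ t, (g (Fin.cons t b) - g (Fin.cons a b)) ^ 2 +
          ∑ j, ∑ t, (g (Fin.cons a (Function.update b j t)) - g (Fin.cons a b)) ^ 2 := by
      intro a b
      rw [Fin.sum_univ_succ]
      congr 1
      · refine Finset.sum_congr rfl fun t _ => ?_
        rw [Fin.update_cons_zero]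
      · refine Finset.sum_congr rfl fun j _ => Finset.sum_congr rfl fun t _ => ?_
        rw [← Fin.cons_update]
    have hR : ∑ x, ∑ j, ∑ t, (g (Function.update x j t) - g x) ^ 2 =
        ∑ b : Fin k → Fin m, ∑ a : Fin m, ∑ a' : Fin m,
          (g (Fin.cons a b) - g (Fin.cons a' b)) ^ 2 +
        ∑ a : Fin m, ∑ b : Fin k → Fin m, ∑ j, ∑ t,
          (g (Fin.cons a (Function.update b j t)) - g (Fin.cons a b)) ^ 2 := by
      rw [h22_sum_cons]
      simp only [h1, Finset.sum_add_distrib]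
      congr 1
      rw [Finset.sum_comm]
      refine Finset.sum_congr rfl fun b _ => ?_
      exact Finset.sum_comm
    have h4 := four_point (fun (a : Fin m) (b : Fin k → Fin m) => g (Fin.cons a b))
    simp only [Fintype.card_fin, Fintype.card_fun] at h4
    push_cast at h4
    have hih : ∀ a : Fin m,
        (m : ℝ) * ∑ b : Fin k → Fin m, ∑ b' : Fin k → Fin m,
          (g (Fin.cons a b) - g (Fin.cons a b')) ^ 2 ≤
        (m : ℝ) ^ k * ∑ b : Fin k → Fin m, ∑ j, ∑ t,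
          (g (Fin.cons a (Function.update b j t)) - g (Fin.cons a b)) ^ 2 :=
      fun a => ih (fun b => g (Fin.cons a b))
    rw [hL, hR]
    calc (m : ℝ) * ∑ a : Fin m, ∑ b : Fin k → Fin m, ∑ a' : Fin m, ∑ b' : Fin k → Fin m,
          (g (Fin.cons a b) - g (Fin.cons a' b')) ^ 2
        ≤ (m : ℝ) * ((m : ℝ) * ∑ a : Fin m, ∑ b : Fin k → Fin m, ∑ b' : Fin k → Fin m,
            (g (Fin.cons a b) - g (Fin.cons a b')) ^ 2 +
          (m : ℝ) ^ k * ∑ b : Fin k → Fin m, ∑ a : Fin m, ∑ a' : Fin m,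
            (g (Fin.cons a b) - g (Fin.cons a' b)) ^ 2) :=
          mul_le_mul_of_nonneg_left h4 hm
      _ = (m : ℝ) * ∑ a : Fin m, ((m : ℝ) * ∑ b : Fin k → Fin m, ∑ b' : Fin k → Fin m,
            (g (Fin.cons a b) - g (Fin.cons a b')) ^ 2) +
          (m : ℝ) ^ (k + 1) * ∑ b : Fin k → Fin m, ∑ a : Fin m, ∑ a' : Fin m,
            (g (Fin.cons a b) - g (Fin.cons a' b)) ^ 2 := by
          rw [← Finset.mul_sum]
          ring
      _ ≤ (m : ℝ) * ∑ a : Fin m, ((m : ℝ) ^ k * ∑ b : Fin k → Fin m, ∑ j, ∑ t,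
            (g (Fin.cons a (Function.update b j t)) - g (Fin.cons a b)) ^ 2) +
          (m : ℝ) ^ (k + 1) * ∑ b : Fin k → Fin m, ∑ a : Fin m, ∑ a' : Fin m,
            (g (Fin.cons a b) - g (Fin.cons a' b)) ^ 2 := by
          have h5 := Finset.sum_le_sum (s := (Finset.univ : Finset (Fin m)))
            (fun a _ => hih a)
          have h6 := mul_le_mul_of_nonneg_left h5 hm
          linarith
      _ = (m : ℝ) ^ (k + 1) * (∑ b : Fin k → Fin m, ∑ a : Fin m, ∑ a' : Fin m,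
            (g (Fin.cons a b) - g (Fin.cons a' b)) ^ 2 +
          ∑ a : Fin m, ∑ b : Fin k → Fin m, ∑ j, ∑ t,
            (g (Fin.cons a (Function.update b j t)) - g (Fin.cons a b)) ^ 2) := by
          rw [← Finset.mul_sum]
          ring

end Vale.Agent.Lib.P249.H22g
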